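import Mathlib

namespace Vale.Agent.Lib.P083

variable {D : Type*} [CStarAlgebra D]

theorem cuntz_orth (s₁ s₂ : D) (h₁ : star s₁ * s₁ = 1)
    (h : s₁ * star s₁ + s₂ * star s₂ = 1) : star s₁ * s₂ = 0 := by
  have key : star s₁ * (s₁ * star s₁ + s₂ * star s₂) * s₁ = star s₁ * 1 * s₁ := by rw [h]
  have e : (star s₁ * s₂) * star (star s₁ * s₂) = 0 := by
    have : star s₁ * (s₁ * star s₁ + s₂ * star s₂) * s₁
        = (star s₁ * s₁) * (star s₁ * s₁) + (star s₁ * s₂) * star (star s₁ * s₂) := by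
      simp only [star_mul, star_star]; noncomm_ring
    rw [this, mul_one, h₁] at key
    simpa [star_mul] using key
  exact (CStarRing.mul_star_self_eq_zero_iff _).mp e

theorem cuntz_orth' (s₁ s₂ : D) (h₁ : star s₁ * s₁ = 1)
    (h : s₁ * star s₁ + s₂ * star s₂ = 1) : star s₂ * s₁ = 0 := by
  have := congrArg star (cuntz_orth s₁ s₂ h₁ h)
  simpa using this

variable {A B : Type*} [CStarAlgebra A] [CStarAlgebra B]

/-- the block-diagonal map `(a, b) ↦ s₁ φ(a) s₁⋆ + s₂ ψ(b) s₂⋆`. -/
noncomputable def sumHom (s₁ s₂ : D) (h₁ : star s₁ * s₁ = 1) (h₂ : star s₂ * s₂ = 1)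
    (h : s₁ * star s₁ + s₂ * star s₂ = 1) (φ : A →⋆ₐ[ℂ] D) (ψ : B →⋆ₐ[ℂ] D) :
    (A × B) →⋆ₐ[ℂ] D where
  toFun p := s₁ * φ p.1 * star s₁ + s₂ * ψ p.2 * star s₂
  map_one' := by simp [h]
  map_mul' p q := by
    have o₁ := cuntz_orth s₁ s₂ h₁ h
    have o₂ := cuntz_orth' s₁ s₂ h₁ h
    simp only [Prod.fst_mul, Prod.snd_mul, map_mul]
    have e1 : s₁ * φ p.1 * star s₁ * (s₁ * φ q.1 * star s₁) = s₁ * (φ p.1 * φ q.1) * star s₁ := by
      calc s₁ * φ p.1 * star s₁ * (s₁ * φ q.1 * star s₁)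
          = s₁ * φ p.1 * (star s₁ * s₁) * φ q.1 * star s₁ := by noncomm_ring
        _ = s₁ * (φ p.1 * φ q.1) * star s₁ := by rw [h₁]; noncomm_ring
    have e2 : s₂ * ψ p.2 * star s₂ * (s₂ * ψ q.2 * star s₂) = s₂ * (ψ p.2 * ψ q.2) * star s₂ := by
      calc s₂ * ψ p.2 * star s₂ * (s₂ * ψ q.2 * star s₂)
          = s₂ * ψ p.2 * (star s₂ * s₂) * ψ q.2 * star s₂ := by noncomm_ring
        _ = s₂ * (ψ p.2 * ψ q.2) * star s₂ := by rw [h₂]; noncomm_ring
    have e3 : s₁ * φ p.1 * star s₁ * (s₂ * ψ q.2 * star s₂) = 0 := by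
      calc s₁ * φ p.1 * star s₁ * (s₂ * ψ q.2 * star s₂)
          = s₁ * φ p.1 * (star s₁ * s₂) * ψ q.2 * star s₂ := by noncomm_ring
        _ = 0 := by rw [o₁]; simp
    have e4 : s₂ * ψ p.2 * star s₂ * (s₁ * φ q.1 * star s₁) = 0 := by
      calc s₂ * ψ p.2 * star s₂ * (s₁ * φ q.1 * star s₁)
          = s₂ * ψ p.2 * (star s₂ * s₁) * φ q.1 * star s₁ := by noncomm_ring
        _ = 0 := by rw [o₂]; simp
    rw [add_mul, mul_add, mul_add, e1, e2, e3, e4]; simp
  map_zero' := by simp
  map_add' p q := by simp only [Prod.fst_add, Prod.snd_add, map_add]; noncomm_ring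
  commutes' r := by
    simp only [Prod.algebraMap_apply, AlgHomClass.commutes]
    rw [Algebra.algebraMap_eq_smul_one]
    simp only [mul_smul_comm, smul_mul_assoc, mul_one, ← smul_add, h]
  map_star' p := by
    simp only [Prod.fst_star, Prod.snd_star, map_star, star_add, star_mul, star_star, mul_assoc]

theorem sumHom_injective (s₁ s₂ : D) (h₁ : star s₁ * s₁ = 1) (h₂ : star s₂ * s₂ = 1)
    (h : s₁ * star s₁ + s₂ * star s₂ = 1) (φ : A →⋆ₐ[ℂ] D) (ψ : B →⋆ₐ[ℂ] D)
    (hφ : Function.Injective φ) (hψ : Function.Injective ψ) :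
    Function.Injective (sumHom s₁ s₂ h₁ h₂ h φ ψ) := by
  rw [injective_iff_map_eq_zero]
  intro p hp
  have o₁ := cuntz_orth s₁ s₂ h₁ h
  have o₂ := cuntz_orth' s₁ s₂ h₁ h
  have hp' : s₁ * φ p.1 * star s₁ + s₂ * ψ p.2 * star s₂ = 0 := hp
  have e1 : φ p.1 = 0 := by
    have : star s₁ * (s₁ * φ p.1 * star s₁ + s₂ * ψ p.2 * star s₂) * s₁ = 0 := by rw [hp']; simp
    have e : star s₁ * (s₁ * φ p.1 * star s₁ + s₂ * ψ p.2 * star s₂) * s₁
        = (star s₁ * s₁) * φ p.1 * (star s₁ * s₁) + (star s₁ * s₂) * ψ p.2 * (star s₂ * s₁) := by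
      noncomm_ring
    rw [e, h₁, o₁] at this
    simpa using this
  have e2 : ψ p.2 = 0 := by
    have : star s₂ * (s₁ * φ p.1 * star s₁ + s₂ * ψ p.2 * star s₂) * s₂ = 0 := by rw [hp']; simp
    have e : star s₂ * (s₁ * φ p.1 * star s₁ + s₂ * ψ p.2 * star s₂) * s₂
        = (star s₂ * s₁) * φ p.1 * (star s₁ * s₂) + (star s₂ * s₂) * ψ p.2 * (star s₂ * s₂) := by
      noncomm_ring
    rw [e, h₂, o₂] at this
    simpa using this
  have a0 : p.1 = 0 := (injective_iff_map_eq_zero φ).mp hφ _ e1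
  have b0 : p.2 = 0 := (injective_iff_map_eq_zero ψ).mp hψ _ e2
  exact Prod.ext a0 b0

/-- A family of isometries with pairwise orthogonal ranges whose range projections sum to one. -/
structure CuntzFamily (n : ℕ) (D : Type*) [CStarAlgebra D] where
  t : Fin n → D
  orth : ∀ i j, star (t i) * t j = if i = j then 1 else 0
  sum_one : ∑ i, t i * star (t i) = 1

noncomputable def CuntzFamily.one : CuntzFamily 1 D where
  t _ := 1
  orth i j := by simp [Subsingleton.elim i j]
  sum_one := by simp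

noncomputable def CuntzFamily.succ {n : ℕ} (F : CuntzFamily n D) (s₁ s₂ : D)
    (h₁ : star s₁ * s₁ = 1) (h₂ : star s₂ * s₂ = 1)
    (h : s₁ * star s₁ + s₂ * star s₂ = 1) : CuntzFamily (n + 1) D where
  t := Fin.cons s₁ (fun i => s₂ * F.t i)
  orth i j := by
    have o₁ := cuntz_orth s₁ s₂ h₁ h
    have o₂ : star s₂ * s₁ = 0 := by simpa using congrArg star o₁
    refine Fin.cases ?_ (fun i => ?_) i <;> refine Fin.cases ?_ (fun j => ?_) j
    · simp [h₁]
    · simp only [Fin.cons_zero, Fin.cons_succ]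
      rw [← mul_assoc, o₁]; simp [Fin.succ_ne_zero, eq_comm]
    · simp only [Fin.cons_zero, Fin.cons_succ, star_mul]
      rw [mul_assoc, o₂]; simp [Fin.succ_ne_zero]
    · simp only [Fin.cons_succ, star_mul]
      have : star (F.t i) * star s₂ * (s₂ * F.t j) = star (F.t i) * (star s₂ * s₂) * F.t j := by
        noncomm_ring
      rw [this, h₂, mul_one, F.orth]; simp [Fin.succ_inj]
  sum_one := by
    rw [Fin.sum_univ_succ]
    simp only [Fin.cons_zero, Fin.cons_succ, star_mul]
    have : ∀ i, s₂ * F.t i * (star (F.t i) * star s₂) = s₂ * (F.t i * star (F.t i)) * star s₂ := by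
      intro i; noncomm_ring
    simp only [this, ← Finset.mul_sum, ← Finset.sum_mul, F.sum_one, mul_one, h]

theorem exists_cuntzFamily (s₁ s₂ : D) (h₁ : star s₁ * s₁ = 1) (h₂ : star s₂ * s₂ = 1)
    (h : s₁ * star s₁ + s₂ * star s₂ = 1) : ∀ n : ℕ, n ≠ 0 → Nonempty (CuntzFamily n D) := by
  intro n hn
  induction n with
  | zero => exact absurd rfl hn
  | succ k ih =>
    rcases Nat.eq_zero_or_pos k with rfl | hk
    · exact ⟨CuntzFamily.one⟩
    · obtain ⟨F⟩ := ih (Nat.pos_iff_ne_zero.mp hk)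
      exact ⟨F.succ s₁ s₂ h₁ h₂ h⟩

/-- the matrix amplification map `[a i j] ↦ ∑ i j, t i * φ (a i j) * star (t j)`. -/
noncomputable def matHom {n : ℕ} (F : CuntzFamily n D) (φ : A →⋆ₐ[ℂ] D) :
    CStarMatrix (Fin n) (Fin n) A →⋆ₐ[ℂ] D where
  toFun M := ∑ i, ∑ j, F.t i * φ (M i j) * star (F.t j)
  map_one' := by
    simp only [CStarMatrix.one_apply]
    have : ∀ i j : Fin n, F.t i * φ (if i = j then (1 : A) else 0) * star (F.t j)
        = if i = j then F.t i * star (F.t i) else 0 := by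
      intro i j; split_ifs with hij
      · subst hij; simp
      · simp
    simp only [this, Finset.sum_ite_eq, Finset.mem_univ, if_true, F.sum_one]
  map_mul' M N := by
    simp only [CStarMatrix.mul_apply, map_sum, map_mul, Finset.sum_mul, Finset.mul_sum]
    have key : ∀ i j k l : Fin n, F.t i * φ (M i j) * star (F.t j) * (F.t k * φ (N k l) * star (F.t l))
        = if j = k then F.t i * (φ (M i j) * φ (N j l)) * star (F.t l) else 0 := by
      intro i j k l
      have : F.t i * φ (M i j) * star (F.t j) * (F.t k * φ (N k l) * star (F.t l))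
          = F.t i * φ (M i j) * (star (F.t j) * F.t k) * φ (N k l) * star (F.t l) := by noncomm_ring
      rw [this, F.orth]
      split_ifs with hjk
      · subst hjk; noncomm_ring
      · simp
    simp only [key, Finset.sum_ite_eq', Finset.mem_univ, if_true]
    calc ∑ x, ∑ x_1, ∑ i, F.t x * (φ (M x i) * φ (N i x_1)) * star (F.t x_1)
        = ∑ x, ∑ i, ∑ x_1, F.t x * (φ (M x i) * φ (N i x_1)) * star (F.t x_1) :=
          Finset.sum_congr rfl (fun i _ => Finset.sum_comm)
      _ = ∑ i, ∑ x, ∑ x_1, F.t x * (φ (M x i) * φ (N i x_1)) * star (F.t x_1) := Finset.sum_comm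
      _ = ∑ i, ∑ x_1, ∑ x, F.t x * (φ (M x i) * φ (N i x_1)) * star (F.t x_1) :=
          Finset.sum_congr rfl (fun i _ => Finset.sum_comm)
  map_zero' := by simp [CStarMatrix.zero_apply]
  map_add' M N := by
    have : ∀ i j : Fin n, (M + N) i j = M i j + N i j := fun i j => rfl
    simp only [this, map_add, mul_add, add_mul, Finset.sum_add_distrib]
  commutes' r := by
    simp only [CStarMatrix.algebraMap_apply]
    have : ∀ i j : Fin n, F.t i * φ (if i = j then (algebraMap ℂ A) r else 0) * star (F.t j)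
        = if i = j then r • (F.t i * star (F.t i)) else 0 := by
      intro i j; split_ifs with hij
      · subst hij
        rw [AlgHomClass.commutes, Algebra.algebraMap_eq_smul_one]
        simp
      · simp
    simp only [this, Finset.sum_ite_eq, Finset.mem_univ, if_true, ← Finset.smul_sum, F.sum_one]
    rw [Algebra.algebraMap_eq_smul_one]
  map_star' M := by
    simp only [star_sum, star_mul, star_star, CStarMatrix.star_apply, map_star, mul_assoc]
    rw [Finset.sum_comm]

theorem matHom_injective {n : ℕ} (F : CuntzFamily n D) (φ : A →⋆ₐ[ℂ] D)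
    (hφ : Function.Injective φ) : Function.Injective (matHom F φ) := by
  rw [injective_iff_map_eq_zero]
  intro M hM
  have hM' : ∑ i, ∑ j, F.t i * φ (M i j) * star (F.t j) = 0 := hM
  apply CStarMatrix.ext
  intro k l
  have e : star (F.t k) * (∑ i, ∑ j, F.t i * φ (M i j) * star (F.t j)) * F.t l = φ (M k l) := by
    simp only [Finset.mul_sum, Finset.sum_mul]
    have key : ∀ i j : Fin n, star (F.t k) * (F.t i * φ (M i j) * star (F.t j)) * F.t l
        = if k = i then (if j = l then φ (M i j) else 0) else 0 := by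
      intro i j
      have : star (F.t k) * (F.t i * φ (M i j) * star (F.t j)) * F.t l
          = (star (F.t k) * F.t i) * φ (M i j) * (star (F.t j) * F.t l) := by noncomm_ring
      rw [this, F.orth, F.orth]
      split_ifs <;> simp
    simp only [key]
    rw [Finset.sum_eq_single k (fun i _ hi => by simp [Ne.symm hi]) (by simp)]
    rw [Finset.sum_eq_single l (fun j _ hj => by simp [hj]) (by simp)]
    simp
  rw [hM'] at e
  have : φ (M k l) = 0 := by rw [← e]; simp
  exact (injective_iff_map_eq_zero φ).mp hφ _ this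

end Vale.Agent.Lib.P083
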